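import Vale.Agent.P265.H936.LSForm

/-!
# Hamiltonian flows on level sets in ambient terms, and their products
-/

open Set Manifold Module
open scoped ContDiff Topology

noncomputable section

set_option maxSynthPendingDepth 3
set_option linter.unusedSectionVars false

namespace Vale.Agent.P265.H363

open Vale.Agent.P265.LS Vale.Agent.P265.Loc

/-- Ambient data on `{G = 0}`: a symplectic form, a Hamiltonian and its flow, whose time-one map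
has only nondegenerate fixed points, at most `c` of them. -/
structure Amb {E F : Type} [NormedAddCommGroup E] [NormedSpace ℝ E] [NormedAddCommGroup F]
    [NormedSpace ℝ F] (G : E → F) (c : ℕ∞) where
  Ω : E → E →L[ℝ] E →L[ℝ] ℝ
  H : ℝ → E → ℝ
  Φ : ℝ → E → E
  hs : ∀ x, G x = 0 → ContDiffAt ℝ ∞ Ω x
  halt : ∀ x, G x = 0 → ∀ v, Ω x v v = 0
  hnd : ∀ x, G x = 0 → ∀ v, fderiv ℝ G x v = 0 → (∀ w, fderiv ℝ G x w = 0 → Ω x v w = 0) → v = 0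
  hcl : ∀ x, G x = 0 → ∀ u v w, fderiv ℝ G x u = 0 → fderiv ℝ G x v = 0 →
      fderiv ℝ G x w = 0 → fderiv ℝ Ω x u v w + fderiv ℝ Ω x v w u + fderiv ℝ Ω x w u v = 0
  hG : ∀ t x, G x = 0 → G (Φ t x) = 0
  hH : ∀ t x, G x = 0 → ContDiffAt ℝ ∞ (fun q : ℝ × E => H q.1 q.2) (t, x)
  hper : ∀ t x, G x = 0 → H (t + 1) x = H t x
  hΦ : ∀ t x, G x = 0 → ContDiffAt ℝ ∞ (fun q : ℝ × E => Φ q.1 q.2) (t, x)
  h0 : ∀ x, G x = 0 → Φ 0 x = x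
  ham : ∀ t x, G x = 0 → ∀ w, fderiv ℝ G (Φ t x) w = 0 →
      Ω (Φ t x) (deriv (fun s => Φ s x) t) w = fderiv ℝ (H t) (Φ t x) w
  hfix : ∀ x, G x = 0 → Φ 1 x = x → ∀ ξ, fderiv ℝ G x ξ = 0 → fderiv ℝ (Φ 1) x ξ = ξ → ξ = 0
  card : {x | G x = 0 ∧ Φ 1 x = x}.encard ≤ c

/-- The Hamiltonian flow on the level set; all fixed points are counted. -/
theorem Amb.result {E F V : Type} [NormedAddCommGroup E] [NormedSpace ℝ E] [NormedAddCommGroup F]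
    [NormedSpace ℝ F] [NormedAddCommGroup V] [NormedSpace ℝ V] [FiniteDimensional ℝ E]
    [FiniteDimensional ℝ F] [FiniteDimensional ℝ V] (D : RegLevel E F V) {c : ℕ∞}
    (A : Amb D.G c) : ∃ (om : FormField V D.Carrier) (H : ℝ → D.Carrier → ℝ)
      (φ : ℝ → D.Carrier → D.Carrier), IsSymplectic om ∧ IsHamiltonianFlow om H φ ∧
      NondegFixedPoints V (φ 1) ∧ {x | φ 1 x = x}.encard ≤ c := by
  refine ⟨D.form A.Ω, fun t x => A.H t (D.ι x), D.restrict A.Φ A.hG,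
    D.isSymplectic_form A.Ω A.hs A.halt A.hnd A.hcl,
    D.isHamiltonianFlow_of_ambient A.Ω A.H A.Φ _ (fun _ _ => rfl) A.hH A.hper A.hΦ A.h0 A.ham,
    D.nondegFixedPoints_of_ambient (A.Φ 1) _ (fun _ => rfl) ?_ A.hfix, ?_⟩
  · intro x hx _
    have h2 : DifferentiableAt ℝ (fun q : ℝ × E => A.Φ q.1 q.2) (1, x) :=
      (A.hΦ 1 x hx).differentiableAt (by simp)
    have h3 : DifferentiableAt ℝ (fun y : E => ((1 : ℝ), y)) x := by fun_prop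
    exact DifferentiableAt.comp (g := fun q : ℝ × E => A.Φ q.1 q.2)
      (f := fun y : E => ((1 : ℝ), y)) _ h2 h3
  · have h1 : D.ι '' {x | D.restrict A.Φ A.hG 1 x = x} ⊆ {x | D.G x = 0 ∧ A.Φ 1 x = x} := by
      rintro _ ⟨x, hx, rfl⟩
      exact ⟨D.G_ι x, congrArg D.ι hx⟩
    calc {x | D.restrict A.Φ A.hG 1 x = x}.encard
        = (D.ι '' {x | D.restrict A.Φ A.hG 1 x = x}).encard := (D.ι_injective.encard_image _).symm
      _ ≤ _ := encard_le_encard h1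
      _ ≤ c := A.card

section Lin

variable {E E₁ : Type} [NormedAddCommGroup E] [NormedSpace ℝ E] [NormedAddCommGroup E₁]
  [NormedSpace ℝ E₁]

/-- Pullback of bilinear forms by a linear map. -/
def pbB (g : E →L[ℝ] E₁) : (E₁ →L[ℝ] E₁ →L[ℝ] ℝ) →L[ℝ] (E →L[ℝ] E →L[ℝ] ℝ) :=
  (ContinuousLinearMap.compL ℝ E (E₁ →L[ℝ] ℝ) (E →L[ℝ] ℝ)
    ((ContinuousLinearMap.compL ℝ E E₁ ℝ).flip g)).comp
    ((ContinuousLinearMap.compL ℝ E E₁ (E₁ →L[ℝ] ℝ)).flip g)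

@[simp] theorem pbB_apply (g : E →L[ℝ] E₁) (f : E₁ →L[ℝ] E₁ →L[ℝ] ℝ) (a b : E) :
    pbB g f a b = f (g a) (g b) := rfl

end Lin

section Prod

variable {E₁ F₁ E₂ F₂ : Type} [NormedAddCommGroup E₁] [NormedSpace ℝ E₁] [NormedAddCommGroup F₁]
  [NormedSpace ℝ F₁] [NormedAddCommGroup E₂] [NormedSpace ℝ E₂] [NormedAddCommGroup F₂]
  [NormedSpace ℝ F₂] {G₁ : E₁ → F₁} {G₂ : E₂ → F₂}

theorem fderiv_prodMap (h1 : Differentiable ℝ G₁) (h2 : Differentiable ℝ G₂) (x ξ : E₁ × E₂) :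
    fderiv ℝ (Prod.map G₁ G₂) x ξ = (fderiv ℝ G₁ x.1 ξ.1, fderiv ℝ G₂ x.2 ξ.2) := by
  have h := (h1 x.1).hasFDerivAt.prodMap x (h2 x.2).hasFDerivAt
  rw [h.fderiv]
  rfl

theorem fderiv_prodMap_eq_zero (h1 : Differentiable ℝ G₁) (h2 : Differentiable ℝ G₂)
    {x ξ : E₁ × E₂} : fderiv ℝ (Prod.map G₁ G₂) x ξ = 0 ↔
      fderiv ℝ G₁ x.1 ξ.1 = 0 ∧ fderiv ℝ G₂ x.2 ξ.2 = 0 := by
  rw [fderiv_prodMap h1 h2, Prod.mk_eq_zero]

theorem prodMap_eq_zero {x : E₁ × E₂} :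
    Prod.map G₁ G₂ x = 0 ↔ G₁ x.1 = 0 ∧ G₂ x.2 = 0 := by
  rw [Prod.map, Prod.mk_eq_zero]

/-- The product form. -/
def omP (Ω₁ : E₁ → E₁ →L[ℝ] E₁ →L[ℝ] ℝ) (Ω₂ : E₂ → E₂ →L[ℝ] E₂ →L[ℝ] ℝ) (x : E₁ × E₂) :
    (E₁ × E₂) →L[ℝ] (E₁ × E₂) →L[ℝ] ℝ :=
  pbB (ContinuousLinearMap.fst ℝ E₁ E₂) (Ω₁ x.1) + pbB (ContinuousLinearMap.snd ℝ E₁ E₂) (Ω₂ x.2)

theorem omP_apply (Ω₁ : E₁ → E₁ →L[ℝ] E₁ →L[ℝ] ℝ) (Ω₂ : E₂ → E₂ →L[ℝ] E₂ →L[ℝ] ℝ)
    (x a b : E₁ × E₂) : omP Ω₁ Ω₂ x a b = Ω₁ x.1 a.1 b.1 + Ω₂ x.2 a.2 b.2 := rfl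

theorem contDiffAt_omP {Ω₁ : E₁ → E₁ →L[ℝ] E₁ →L[ℝ] ℝ} {Ω₂ : E₂ → E₂ →L[ℝ] E₂ →L[ℝ] ℝ}
    {x : E₁ × E₂} (h1 : ContDiffAt ℝ ∞ Ω₁ x.1) (h2 : ContDiffAt ℝ ∞ Ω₂ x.2) :
    ContDiffAt ℝ ∞ (omP Ω₁ Ω₂) x := by
  have e1 : ContDiffAt ℝ ∞ (fun y : E₁ × E₂ => Ω₁ y.1) x := h1.comp x contDiffAt_fst
  have e2 : ContDiffAt ℝ ∞ (fun y : E₁ × E₂ => Ω₂ y.2) x := h2.comp x contDiffAt_snd
  have e3 := (pbB (ContinuousLinearMap.fst ℝ E₁ E₂)).contDiff.contDiffAt.comp x e1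
  have e4 := (pbB (ContinuousLinearMap.snd ℝ E₁ E₂)).contDiff.contDiffAt.comp x e2
  exact e3.add e4

theorem fderiv_omP {Ω₁ : E₁ → E₁ →L[ℝ] E₁ →L[ℝ] ℝ} {Ω₂ : E₂ → E₂ →L[ℝ] E₂ →L[ℝ] ℝ}
    {x : E₁ × E₂} (h1 : DifferentiableAt ℝ Ω₁ x.1) (h2 : DifferentiableAt ℝ Ω₂ x.2)
    (u v w : E₁ × E₂) : fderiv ℝ (omP Ω₁ Ω₂) x u v w =
      fderiv ℝ Ω₁ x.1 u.1 v.1 w.1 + fderiv ℝ Ω₂ x.2 u.2 v.2 w.2 := by
  have e1 : HasFDerivAt (fun y : E₁ × E₂ => Ω₁ y.1)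
      ((fderiv ℝ Ω₁ x.1).comp (ContinuousLinearMap.fst ℝ E₁ E₂)) x :=
    HasFDerivAt.comp (g := Ω₁) (f := Prod.fst) x h1.hasFDerivAt hasFDerivAt_fst
  have e2 : HasFDerivAt (fun y : E₁ × E₂ => Ω₂ y.2)
      ((fderiv ℝ Ω₂ x.2).comp (ContinuousLinearMap.snd ℝ E₁ E₂)) x :=
    HasFDerivAt.comp (g := Ω₂) (f := Prod.snd) x h2.hasFDerivAt hasFDerivAt_snd
  have e3 := (pbB (ContinuousLinearMap.fst ℝ E₁ E₂)).hasFDerivAt.comp x e1
  have e4 := (pbB (ContinuousLinearMap.snd ℝ E₁ E₂)).hasFDerivAt.comp x e2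
  have e5 : HasFDerivAt (omP Ω₁ Ω₂) _ x := e3.add e4
  rw [e5.fderiv]
  rfl

theorem diff_time {E : Type} [NormedAddCommGroup E] [NormedSpace ℝ E] {W : Type}
    [NormedAddCommGroup W] [NormedSpace ℝ W] {H : ℝ → E → W} {t : ℝ} {x : E}
    (h : ContDiffAt ℝ ∞ (fun q : ℝ × E => H q.1 q.2) (t, x)) : DifferentiableAt ℝ (H t) x := by
  have h3 : DifferentiableAt ℝ (fun y : E => (t, y)) x := by fun_prop
  exact DifferentiableAt.comp (g := fun q : ℝ × E => H q.1 q.2)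
    (f := fun y : E => (t, y)) x (h.differentiableAt (by simp)) h3

theorem diff_curve {E : Type} [NormedAddCommGroup E] [NormedSpace ℝ E] {W : Type}
    [NormedAddCommGroup W] [NormedSpace ℝ W] {H : ℝ → E → W} {t : ℝ} {x : E}
    (h : ContDiffAt ℝ ∞ (fun q : ℝ × E => H q.1 q.2) (t, x)) :
    DifferentiableAt ℝ (fun s => H s x) t := by
  have h3 : DifferentiableAt ℝ (fun s : ℝ => (s, x)) t := by fun_prop
  exact DifferentiableAt.comp (g := fun q : ℝ × E => H q.1 q.2)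
    (f := fun s : ℝ => (s, x)) t (h.differentiableAt (by simp)) h3

/-- The product of two Hamiltonian flows. -/
def Amb.prod {c d : ℕ∞} (A : Amb G₁ c) (B : Amb G₂ d) (h1 : ContDiff ℝ ∞ G₁)
    (h2 : ContDiff ℝ ∞ G₂) : Amb (Prod.map G₁ G₂) (c * d) where
  Ω := omP A.Ω B.Ω
  H t x := A.H t x.1 + B.H t x.2
  Φ t x := (A.Φ t x.1, B.Φ t x.2)
  hs x hx := by
    rw [prodMap_eq_zero] at hx
    exact contDiffAt_omP (A.hs _ hx.1) (B.hs _ hx.2)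
  halt x hx v := by
    rw [prodMap_eq_zero] at hx
    rw [omP_apply, A.halt _ hx.1, B.halt _ hx.2, add_zero]
  hnd x hx v hv h := by
    rw [prodMap_eq_zero] at hx
    have d1 := h1.differentiable (by simp)
    have d2 := h2.differentiable (by simp)
    rw [fderiv_prodMap_eq_zero d1 d2] at hv
    refine Prod.ext (A.hnd _ hx.1 _ hv.1 fun w hw => ?_) (B.hnd _ hx.2 _ hv.2 fun w hw => ?_)
    · have := h (w, 0) ((fderiv_prodMap_eq_zero d1 d2).2 ⟨hw, map_zero _⟩)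
      rw [omP_apply, map_zero, add_zero] at this
      exact this
    · have := h (0, w) ((fderiv_prodMap_eq_zero d1 d2).2 ⟨map_zero _, hw⟩)
      rw [omP_apply, map_zero, zero_add] at this
      exact this
  hcl x hx u v w hu hv hw := by
    rw [prodMap_eq_zero] at hx
    have d1 := h1.differentiable (by simp)
    have d2 := h2.differentiable (by simp)
    rw [fderiv_prodMap_eq_zero d1 d2] at hu hv hw
    have e1 := (A.hs _ hx.1).differentiableAt (by simp)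
    have e2 := (B.hs _ hx.2).differentiableAt (by simp)
    have e3 := A.hcl _ hx.1 u.1 v.1 w.1 hu.1 hv.1 hw.1
    have e4 := B.hcl _ hx.2 u.2 v.2 w.2 hu.2 hv.2 hw.2
    rw [fderiv_omP e1 e2, fderiv_omP e1 e2, fderiv_omP e1 e2]
    linarith
  hG t x hx := by
    rw [prodMap_eq_zero] at hx ⊢
    exact ⟨A.hG t _ hx.1, B.hG t _ hx.2⟩
  hH t x hx := by
    rw [prodMap_eq_zero] at hx
    have e1 : ContDiffAt ℝ ∞ (fun q : ℝ × (E₁ × E₂) => (q.1, q.2.1)) (t, x) := by fun_prop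
    have e2 : ContDiffAt ℝ ∞ (fun q : ℝ × (E₁ × E₂) => (q.1, q.2.2)) (t, x) := by fun_prop
    exact (ContDiffAt.comp (t, x) (g := fun q : ℝ × E₁ => A.H q.1 q.2) (A.hH t _ hx.1) e1).add
      (ContDiffAt.comp (t, x) (g := fun q : ℝ × E₂ => B.H q.1 q.2) (B.hH t _ hx.2) e2)
  hper t x hx := by
    rw [prodMap_eq_zero] at hx
    simp only [A.hper t _ hx.1, B.hper t _ hx.2]
  hΦ t x hx := by
    rw [prodMap_eq_zero] at hx
    have e1 : ContDiffAt ℝ ∞ (fun q : ℝ × (E₁ × E₂) => (q.1, q.2.1)) (t, x) := by fun_prop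
    have e2 : ContDiffAt ℝ ∞ (fun q : ℝ × (E₁ × E₂) => (q.1, q.2.2)) (t, x) := by fun_prop
    exact (ContDiffAt.comp (t, x) (g := fun q : ℝ × E₁ => A.Φ q.1 q.2) (A.hΦ t _ hx.1)
      e1).prodMk (ContDiffAt.comp (t, x) (g := fun q : ℝ × E₂ => B.Φ q.1 q.2) (B.hΦ t _ hx.2) e2)
  h0 x hx := by
    rw [prodMap_eq_zero] at hx
    exact Prod.ext (A.h0 _ hx.1) (B.h0 _ hx.2)
  ham t x hx w hw := by
    rw [prodMap_eq_zero] at hx
    have d1 := h1.differentiable (by simp)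
    have d2 := h2.differentiable (by simp)
    rw [fderiv_prodMap_eq_zero d1 d2] at hw
    have e1 : HasDerivAt (fun s => (A.Φ s x.1, B.Φ s x.2))
        (deriv (fun s => A.Φ s x.1) t, deriv (fun s => B.Φ s x.2) t) t :=
      (diff_curve (A.hΦ t _ hx.1)).hasDerivAt.prodMk (diff_curve (B.hΦ t _ hx.2)).hasDerivAt
    have e2 : HasFDerivAt (fun y : E₁ × E₂ => A.H t y.1 + B.H t y.2)
        ((fderiv ℝ (A.H t) (A.Φ t x.1)).comp (ContinuousLinearMap.fst ℝ E₁ E₂) +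
          (fderiv ℝ (B.H t) (B.Φ t x.2)).comp (ContinuousLinearMap.snd ℝ E₁ E₂))
        (A.Φ t x.1, B.Φ t x.2) :=
      (HasFDerivAt.comp (g := A.H t) (f := Prod.fst) (A.Φ t x.1, B.Φ t x.2)
        (diff_time (A.hH t _ (A.hG t _ hx.1))).hasFDerivAt hasFDerivAt_fst).add
      (HasFDerivAt.comp (g := B.H t) (f := Prod.snd) (A.Φ t x.1, B.Φ t x.2)
        (diff_time (B.hH t _ (B.hG t _ hx.2))).hasFDerivAt hasFDerivAt_snd)
    rw [e1.deriv, e2.fderiv, omP_apply]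
    have e3 := A.ham t _ hx.1 w.1 hw.1
    have e4 := B.ham t _ hx.2 w.2 hw.2
    simp only [e3, e4]
    rfl
  hfix x hx hfx ξ hξ hξ' := by
    rw [prodMap_eq_zero] at hx
    have d1 := h1.differentiable (by simp)
    have d2 := h2.differentiable (by simp)
    rw [fderiv_prodMap_eq_zero d1 d2] at hξ
    have f1 : A.Φ 1 x.1 = x.1 := congrArg Prod.fst hfx
    have f2 : B.Φ 1 x.2 = x.2 := congrArg Prod.snd hfx
    have e1 : HasFDerivAt (fun y : E₁ × E₂ => (A.Φ 1 y.1, B.Φ 1 y.2))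
        (((fderiv ℝ (A.Φ 1) x.1).comp (ContinuousLinearMap.fst ℝ E₁ E₂)).prod
          ((fderiv ℝ (B.Φ 1) x.2).comp (ContinuousLinearMap.snd ℝ E₁ E₂))) x :=
      (HasFDerivAt.comp (g := A.Φ 1) (f := Prod.fst) x
        (diff_time (A.hΦ 1 _ hx.1)).hasFDerivAt hasFDerivAt_fst).prodMk
      (HasFDerivAt.comp (g := B.Φ 1) (f := Prod.snd) x
        (diff_time (B.hΦ 1 _ hx.2)).hasFDerivAt hasFDerivAt_snd)
    rw [e1.fderiv] at hξ'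
    exact Prod.ext (A.hfix _ hx.1 f1 _ hξ.1 (congrArg Prod.fst hξ'))
      (B.hfix _ hx.2 f2 _ hξ.2 (congrArg Prod.snd hξ'))
  card := by
    have h : {x : E₁ × E₂ | Prod.map G₁ G₂ x = 0 ∧ (A.Φ 1 x.1, B.Φ 1 x.2) = x} ⊆
        {x | G₁ x = 0 ∧ A.Φ 1 x = x} ×ˢ {x | G₂ x = 0 ∧ B.Φ 1 x = x} := by
      rintro x ⟨hx, hfx⟩
      rw [prodMap_eq_zero] at hx
      exact ⟨⟨hx.1, congrArg Prod.fst hfx⟩, ⟨hx.2, congrArg Prod.snd hfx⟩⟩
    calc _ ≤ _ := encard_le_encard h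
      _ = _ := encard_prod
      _ ≤ c * d := mul_le_mul' A.card B.card

end Prod

end Vale.Agent.P265.H363
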