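import Vale.Agent.P265.H264.Count
import Vale.Agent.P265.H336.Iface
import Mathlib.Data.Nat.Choose.Sum
import Mathlib.Data.Nat.Choose.Basic

/-!
# Counting critical points: binomial coefficients
-/

open Set Manifold
open scoped ContDiff Topology

namespace Vale.Agent.P265.H363

open Vale.Agent.P265.Loc Vale.Agent.P265.AS Vale.Agent.P265.H264

theorem sum_two_mul (f : ℕ → ℕ) (m : ℕ) :
    ∑ j ∈ Finset.range (2 * m), f j = ∑ i ∈ Finset.range m, (f (2 * i) + f (2 * i + 1)) := by
  induction m with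
  | zero => simp
  | succ m ih =>
    rw [show 2 * (m + 1) = 2 * m + 1 + 1 by ring, Finset.sum_range_succ, Finset.sum_range_succ, ih,
      Finset.sum_range_succ, add_assoc]

/-- Partial sums of binomial coefficients. -/
def T (N r : ℕ) : ℕ := ∑ i ∈ Finset.range r, N.choose i

theorem T_succ (N r : ℕ) : T N (r + 1) = T N r + N.choose r := Finset.sum_range_succ _ _

theorem T_bound (N r : ℕ) (h : 2 * r ≤ N) : T N r * (N + 1 - 2 * r) ≤ r * N.choose r := by
  induction r with
  | zero => simp [T]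
  | succ r ih =>
    have h1 := ih (by omega)
    have h2 := Nat.choose_succ_right_eq N r
    obtain ⟨m, rfl⟩ : ∃ m, N = 2 * (r + 1) + m := ⟨N - 2 * (r + 1), by omega⟩
    have e1 : 2 * (r + 1) + m + 1 - 2 * (r + 1) = m + 1 := by omega
    have e2 : 2 * (r + 1) + m + 1 - 2 * r = m + 3 := by omega
    have e3 : 2 * (r + 1) + m - r = r + m + 2 := by omega
    rw [T_succ, e1]
    rw [e2] at h1
    rw [e3] at h2
    nlinarith [Nat.zero_le (T (2 * (r + 1) + m) r), Nat.zero_le ((2 * (r + 1) + m).choose r)]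

theorem choose_four (r : ℕ) (hr : 2 ≤ r) : (2 * r + 1) * 2 ^ r ≤ (4 * r).choose r := by
  induction r, hr using Nat.le_induction with
  | base => decide
  | succ r hr ih =>
    have h1 := Nat.add_one_mul_choose_eq (4 * r + 3) r
    have h2 : (4 * r).choose r ≤ (4 * r + 3).choose r := Nat.choose_le_choose r (by omega)
    have h3 : (4 * (r + 1)).choose (r + 1) = 4 * (4 * r + 3).choose r := by
      rw [show 4 * r + 3 + 1 = 4 * (r + 1) by ring] at h1
      have h5 : (r + 1) * ((4 * (r + 1)).choose (r + 1)) = (r + 1) * (4 * (4 * r + 3).choose r) := by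
        rw [mul_comm, ← h1]; ring
      exact Nat.eq_of_mul_eq_mul_left (Nat.succ_pos r) h5
    rw [h3, pow_succ]
    have h6 : 0 < 2 ^ r := by positivity
    nlinarith

theorem T_lt (N r : ℕ) (h : 4 * r ≤ N) : 2 * T N r + 2 ^ r ≤ N.choose r := by
  rcases Nat.lt_or_ge r 2 with hr | hr
  · interval_cases r
    · simp [T]
    · simp only [T, Finset.sum_range_one, Nat.choose_zero_right, Nat.choose_one_right]
      omega
  · have h1 := T_bound N r (by omega)
    have h2 := choose_four r hr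
    have h3 : (4 * r).choose r ≤ N.choose r := Nat.choose_le_choose r h
    have h4 : T N r * (2 * r + 1) ≤ r * N.choose r :=
      (Nat.mul_le_mul_left _ (by omega)).trans h1
    have h5 : (2 * r + 1) * (2 * T N r + 2 ^ r) ≤ (2 * r + 1) * N.choose r := by nlinarith
    exact Nat.le_of_mul_le_mul_left h5 (by omega)

theorem T_total (N : ℕ) : T N (N + 1) = 2 ^ N := Nat.sum_range_choose N

theorem T_pascal (N r : ℕ) : T (N + 1) (r + 1) = T N (r + 1) + T N r := by
  unfold T
  rw [Finset.sum_range_succ', Finset.sum_range_succ' (fun i => N.choose i)]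
  simp only [Nat.choose_succ_succ, Finset.sum_add_distrib, Nat.choose_zero_right]
  ring

/-- The lower bounds for the numbers of critical points of index `j`. -/
def lb (k r j : ℕ) : ℕ :=
  if j % 2 = 1 then 2 * (k + 2).choose (j / 2)
  else if j / 2 ≤ r then (k + 2).choose (j / 2) else 4 * (k + 1).choose (j / 2 - 1)

theorem lb_odd (k r i : ℕ) : lb k r (2 * i + 1) = 2 * (k + 2).choose i := by
  unfold lb
  rw [if_pos (by omega), show (2 * i + 1) / 2 = i by omega]

theorem lb_even (k r i : ℕ) : lb k r (2 * i) =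
    if i ≤ r then (k + 2).choose i else 4 * (k + 1).choose (i - 1) := by
  unfold lb
  rw [if_neg (by omega), show 2 * i / 2 = i by omega]

theorem sum_even (k r m : ℕ) : (∑ i ∈ Finset.range (r + 1 + m), lb k r (2 * i)) +
    4 * T (k + 1) r = T (k + 2) (r + 1) + 4 * T (k + 1) (r + m) := by
  induction m with
  | zero =>
    have : ∑ i ∈ Finset.range (r + 1 + 0), lb k r (2 * i) = T (k + 2) (r + 1) := by
      refine Finset.sum_congr rfl fun i hi => ?_
      rw [lb_even, if_pos (by rw [Finset.mem_range] at hi; omega)]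
    rw [this, add_zero]
  | succ m ih =>
    rw [← add_assoc, Finset.sum_range_succ, lb_even, if_neg (by omega),
      show r + (m + 1) = r + m + 1 by ring, T_succ (k + 1) (r + m), show r + 1 + m - 1 = r + m by omega]
    linarith

theorem sum_lb (k r : ℕ) (h : 4 * r ≤ k + 1) :
    2 ^ (k + 4) + 2 ^ r ≤ ∑ j ∈ Finset.range (2 * (k + 3)), lb k r j := by
  rw [sum_two_mul, Finset.sum_add_distrib]
  have h1 : ∑ i ∈ Finset.range (k + 3), lb k r (2 * i + 1) = 2 * 2 ^ (k + 2) := by
    rw [← T_total, T, Finset.mul_sum]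
    exact Finset.sum_congr rfl fun i _ => lb_odd k r i
  have h2 := sum_even k r (k + 2 - r)
  rw [show r + 1 + (k + 2 - r) = k + 3 by omega, show r + (k + 2 - r) = k + 1 + 1 by omega,
    T_total, T_pascal, T_succ] at h2
  have h3 := T_lt (k + 1) r h
  rw [h1]
  have e1 : 2 ^ (k + 4) = 16 * 2 ^ k := by ring
  have e2 : 2 ^ (k + 2) = 4 * 2 ^ k := by ring
  have e3 : 2 ^ (k + 1) = 2 * 2 ^ k := by ring
  rw [e1, e2]
  rw [e3] at h2
  omega

/-- The lower bound for the stable Morse number. -/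
theorem le_SM {V : Type} [NormedAddCommGroup V] [NormedSpace ℝ V]
    [FiniteDimensional ℝ V] {M N : Type} [MetricSpace M] [CompactSpace M] [Nonempty M]
    [ChartedSpace V M] [IsManifold 𝓘(ℝ, V) ∞ M] [MetricSpace N] [CompactSpace N] {n : ℕ}
    (C : CycCover M N n) (hMI : MorseIneq) {F : Type} [Field F] (χ : F) (hχ : χ ^ n = 1) (k : ℕ)
    (h1 : ∀ i, ((2 * (k + 2).choose i : ℕ) : Cardinal) ≤ hh C.g χ univ ∅ (2 * i + 1))
    (h2 : ∀ i, ((4 * (k + 1).choose i : ℕ) : Cardinal) ≤ hh C.g χ univ ∅ (2 * i + 2))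
    (h0 : ∀ i, ((1 * (k + 2).choose i : ℕ) : Cardinal) ≤ hh C.g (1 : F) univ ∅ (2 * i + 0))
    (r : ℕ) (hr : 4 * r ≤ k + 1) :
    (2 : ℕ∞) ^ (k + 4) + 2 ^ r ≤ StableMorseNumber V M := by
  refine le_stableMorseNumber _ fun l G hG hQ => ?_
  rcases (Crit (𝓘(ℝ, V).prod 𝓘(ℝ, EuclideanSpace ℝ (Fin l))) G).finite_or_infinite with hfin | hinf
  swap
  · rw [hinf.encard_eq]; exact le_top
  obtain ⟨idx, ν, hidx⟩ := hMI (V := V) C l G hG (fun _ => hQ) hfin
  have aux : ∀ (j b : ℕ) (ψ : F), ψ ^ n = 1 → (b : Cardinal) ≤ hh C.g ψ univ ∅ j →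
      (b : ℕ∞) ≤ {x | x ∈ Crit (𝓘(ℝ, V).prod 𝓘(ℝ, EuclideanSpace ℝ (Fin l))) G ∧
        idx x = j + ν}.encard := by
    intro j b ψ hψ hb
    have h := hb.trans (hidx ψ hψ j)
    have h' := Nat.cast_le.1 h
    have hf : {x | x ∈ Crit (𝓘(ℝ, V).prod 𝓘(ℝ, EuclideanSpace ℝ (Fin l))) G ∧
        idx x = j + ν}.Finite := hfin.subset fun x hx => hx.1
    rw [← hf.cast_ncard_eq]
    exact_mod_cast h'
  have key : ∀ j < 2 * (k + 3), ((lb k r j : ℕ) : ℕ∞) ≤
      {x | x ∈ Crit (𝓘(ℝ, V).prod 𝓘(ℝ, EuclideanSpace ℝ (Fin l))) G ∧ idx x = j + ν}.encard := by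
    intro j _
    rcases Nat.even_or_odd' j with ⟨i, rfl | rfl⟩
    · rw [lb_even]
      split_ifs with hi
      · exact aux _ _ 1 (one_pow n) (by simpa using h0 i)
      · obtain ⟨i, rfl⟩ : ∃ i', i = i' + 1 := ⟨i - 1, by omega⟩
        rw [Nat.add_sub_cancel]
        exact aux _ _ χ hχ (h2 i)
    · rw [lb_odd]
      exact aux _ _ χ hχ (h1 i)
  have h := sum_le_encard _ idx ν (fun j => ((lb k r j : ℕ) : ℕ∞)) (2 * (k + 3)) key
  refine le_trans ?_ h
  rw [← Nat.cast_sum]
  have := sum_lb k r hr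
  exact_mod_cast this

end Vale.Agent.P265.H363
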