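import Vale.Agent.P265.H363.Pr
import Vale.Agent.P265.H363.Count
import Vale.Agent.P265.H60.Conn
import Vale.Agent.P265.H185.Main
import Vale.Agent.P265.H336.MorseIneq
import Vale.Agent.P265.H423.Cover

/-!
# The six-dimensional example in ambient terms, and its products with spheres
-/

open Set Manifold Module
open scoped Quaternion ContDiff Topology

noncomputable section

set_option maxSynthPendingDepth 3

namespace Vale.Agent.P265.H363

open Vale.Agent.P265.LS Vale.Agent.P265.Loc Vale.Agent.P265.AS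

section Base

open Vale.Agent.P265.Dis Vale.Agent.P265.H185

theorem ambBase : Nonempty (Amb Dis.G 16) := by
  have hz : ∀ x : Dis.E, Dis.G x = 0 → af Qp JL (-g0) 1 x = 0 → Sf Qp (-g0) 1 x = x.2 →
      x ∈ zset := by
    intro x hx ha hS
    refine ⟨hx, ?_, ?_⟩
    · have h := bridge_comm hx hS
      rw [Pw_eq] at h
      rw [cm, h, sub_self]
    · intro ξ hξ
      rw [← hC_eq_th]
      exact bridge_hC hx ha (tanW_of hξ)
  have hinj : ∀ x : Dis.E, Dis.G x = 0 → af Qp JL (-g0) 1 x = 0 → Sf Qp (-g0) 1 x = x.2 →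
      ∀ ξ : Dis.E, fderiv ℝ Dis.G x ξ = 0 → fderiv ℝ (af Qp JL (-g0) 1) x ξ = 0 →
      fderiv ℝ (Sf Qp (-g0) 1) x ξ = ξ.2 → ξ = 0 := by
    intro x hx ha hS ξ hξ hda hdS
    refine zset_nondeg' (hz x hx ha hS) hξ ?_ ?_
    · have h := bridge_comm_deriv hx hS hdS
      have h2 : (fun y : Dis.E => cm y.1 y.2) =
          fun x : Dis.E => Pw x.1 * star g0 * x.2 - x.2 * (Pw x.1 * star g0) := by
        funext y
        rw [cm, Pw_eq]
      rw [h2]
      exact h
    · intro b hb hbt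
      have h := bridge_hC_deriv hx ha hda (b := b) (hb.differentiable (by simp) x.1)
        (fun w => tanW_of (hbt w 0))
      have h2 : (fun y : Dis.E => th y.1 y.2 (b y.1)) = fun x : Dis.E => hC x (b x.1) := by
        funext y
        rw [hC_eq_th]
      rw [h2]
      exact h
  obtain ⟨δ, hδ, hκ⟩ := quat_flow contDiff_G (isCompact_norm_G_le le_rfl) fderiv_G_comm G_conj
    contDiff_Qp Qp_zero (neg_ne_zero.2 g0_ne) (fun b hb x hx => Qp_ne hb hx) isOpen_Dom
    (fun x hx => mem_Dom hx) contDiffOn_JL (fun x _ β => fderiv_G_JL x.1 β x.2)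
    (omW := omW) (by
      intro w c a b
      simp only [omW, alW, thW, ThW, deW, dfW, ddW, Prod.smul_fst, Prod.smul_snd, smul_eq_mul,
        Complex.real_smul, Complex.mul_re, Complex.mul_im, Complex.sub_re, Complex.sub_im,
        Complex.add_re, Complex.add_im, Complex.ofReal_re, Complex.ofReal_im]
      ring)
    (fun x hx β η hη => omW_JL (mem_Dom hx) β (tanW_of hη))
    (fun x hx => sphere_of hx) (fun x _ η hη => sphere_tangent η hη) hinj
  have hpos : 0 < δ / 2 := by positivity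
  obtain ⟨H, Φ, h1, h2, h3, h4, h5, h6, h7, h8⟩ := hκ (δ / 2) hpos (by linarith)
  exact ⟨{
    Ω := Om (δ / 2)
    H := H
    Φ := Φ
    hs := fun _ _ => (contDiff_Om (δ / 2)).contDiffAt
    halt := fun x _ v => Om_self (δ / 2) x v
    hnd := fun _ hx _ hv h => Om_nondeg hpos.ne' hx hv h
    hcl := fun _ hx _ _ _ hu hv hw => Om_closed (δ / 2) hx hu hv hw
    hG := h1
    hH := h2
    hper := fun t x _ => h3 t x
    hΦ := fun t x _ => h4.contDiffAt
    h0 := fun x _ => h5 x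
    ham := by
      intro t x hx w hw
      rw [Om_apply]
      exact h6 t x hx w hw
    hfix := h7
    card := h8.trans ((encard_le_encard fun x hx => hz x hx.1 hx.2.1 hx.2.2).trans
      encard_zset) }⟩

end Base

attribute [local instance] Vale.Agent.P265.Top.fact7

section Betti

open Vale.Agent.P265.Top

theorem Sig_nonempty : Sig.Nonempty := by
  obtain ⟨p, hp⟩ := YY_nonempty
  exact ⟨_, hp.1.1.1⟩

/-- The untwisted classes. -/
theorem betti_one :
    1 ≤ hh cover.g (1 : ZMod 7) univ ∅ 0 ∧ 2 ≤ hh cover.g (1 : ZMod 7) univ ∅ 2 ∧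
    1 ≤ hh cover.g (1 : ZMod 7) univ ∅ 4 := by
  have h6 : ((6 : ℕ) : ZMod 7) ≠ 0 := by
    intro h6
    have h7 := (ZMod.natCast_eq_zero_iff 6 7).1 h6
    omega
  have h7 : ((7 : ℕ) : ZMod 7) = 0 := ZMod.natCast_self 7
  have h70 : (7 : ℕ) ≠ 0 := by norm_num
  have hX : 1 ≤ hh gSi (1 : ZMod 7) Sig ∅ 0 := one_le_hh_zero gSi Sig Sig_nonempty
  have a0 : 1 ≤ hh (rot gSi ze) (1 : ZMod 7) (circ Sig) ∅ 0 :=
    hX.trans (hh_circ_ge gSi 1 Sig h6 ze_six 0)
  have a1 : 1 ≤ hh (rot gSi ze) (1 : ZMod 7) (circ Sig) ∅ 1 :=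
    (hX.trans (self_le_add_left _ _)).trans (hh_circ_add gSi 1 Sig h6 ze_six h7 h70 0)
  have b0 : 1 ≤ hh (rot (rot gSi ze) 1) (1 : ZMod 7) (circ (circ Sig)) ∅ 0 :=
    a0.trans (hh_circ_ge _ 1 _ h6 (one_pow 6) 0)
  have b2 : 1 ≤ hh (rot (rot gSi ze) 1) (1 : ZMod 7) (circ (circ Sig)) ∅ 2 :=
    (a1.trans (self_le_add_left _ _)).trans (hh_circ_add _ 1 _ h6 (one_pow 6) h7 h70 1)
  have s0 := b0.trans (hh_sph_ge _ 1 _ 0)
  have s2 : 2 ≤ hh (Prod.map (rot (rot gSi ze) 1) id) (1 : ZMod 7) (sph (circ (circ Sig))) ∅ 2 := by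
    rw [← one_add_one_eq_two]
    exact (add_le_add b2 b0).trans (hh_sph_add _ 1 _ h7 h70 0)
  have s4 : 1 ≤ hh (Prod.map (rot (rot gSi ze) 1) id) (1 : ZMod 7) (sph (circ (circ Sig))) ∅ 4 :=
    (b2.trans (self_le_add_left _ _)).trans (hh_sph_add _ 1 _ h7 h70 2)
  exact ⟨s0.trans (transfer_cover 1 0), s2.trans (transfer_cover 1 2), s4.trans (transfer_cover 1 4)⟩

end Betti

/-- Lower bounds for the equivariant cohomology in the degrees `2 i + s`. -/
def Lo {M N : Type} [MetricSpace M] [MetricSpace N] {n : ℕ} (C : CycCover M N n) {k : Type}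
    [Field k] (χ : k) (s a m : ℕ) : Prop :=
  ∀ i, ((a * m.choose i : ℕ) : Cardinal) ≤ hh C.g χ univ ∅ (2 * i + s)

theorem Lo.step {E F V : Type} [NormedAddCommGroup E] [NormedSpace ℝ E] [NormedAddCommGroup F]
    [NormedSpace ℝ F] [NormedAddCommGroup V] [NormedSpace ℝ V] [FiniteDimensional ℝ E]
    [FiniteDimensional ℝ F] [FiniteDimensional ℝ V] {D : RegLevel E F V} {V' : Type}
    [NormedAddCommGroup V'] [NormedSpace ℝ V'] [FiniteDimensional ℝ V']
    (h : finrank ℝ V' = finrank ℝ V + 2) {N : Type} [MetricSpace N] {n : ℕ}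
    {C : CycCover D.Carrier N n} {k : Type} [Field k] {χ : k} {r : ℕ} (hr : (r : k) = 0)
    (hr0 : r ≠ 0) {s a m : ℕ} (H : Lo C χ s a m) : Lo (covS D h C) χ s a (m + 1) := by
  intro i
  cases i with
  | zero =>
    have h1 := (H 0).trans (covS_ge D h C χ _)
    simpa using h1
  | succ i =>
    have h1 := (add_le_add (H (i + 1)) (H i))
    have e : 2 * (i + 1) + s = 2 * i + s + 2 := by ring
    rw [e] at h1 ⊢
    refine le_trans ?_ (h1.trans (covS_add D h C χ hr hr0 (2 * i + s)))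
    rw [← Nat.cast_add, Nat.choose_succ_succ]
    apply le_of_eq
    congr 1
    ring

/-- The `k`-th example, of dimension `2 (k + 3)`. -/
def Pk (k : ℕ) : Prop :=
  ∃ (E F : Type) (_ : NormedAddCommGroup E) (_ : NormedSpace ℝ E) (_ : FiniteDimensional ℝ E)
    (_ : NormedAddCommGroup F) (_ : NormedSpace ℝ F) (_ : FiniteDimensional ℝ F)
    (D : RegLevel E F (EuclideanSpace ℝ (Fin (2 * (k + 3))))),
    Nonempty (Amb D.G (16 * 2 ^ k)) ∧ (∃ R, ∀ x, D.G x = 0 → ‖x‖ ≤ R) ∧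
    ConnectedSpace D.Carrier ∧ ∃ (N : Type) (_ : MetricSpace N) (_ : CompactSpace N)
      (C : CycCover D.Carrier N 6), Lo C (3 : ZMod 7) 1 2 (k + 2) ∧ Lo C (3 : ZMod 7) 2 4 (k + 1) ∧
        Lo C (1 : ZMod 7) 0 1 (k + 2)

theorem pk_zero : Pk 0 := by
  obtain ⟨A⟩ := ambBase
  refine ⟨Dis.E, Dis.F, inferInstance, inferInstance, inferInstance, inferInstance, inferInstance,
    inferInstance, Dis.RL, ⟨?_⟩, ⟨2, Dis.bound⟩, inferInstanceAs (ConnectedSpace Dis.M), Top.NN,
    inferInstance, inferInstance, Top.cover, ?_, ?_, ?_⟩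
  · have e : (16 : ℕ∞) * 2 ^ 0 = 16 := by norm_num
    rw [e]
    exact A
  · obtain ⟨h1, h2, h3, h4, h5⟩ := Top.betti_cover
    intro i
    match i with
    | 0 => exact_mod_cast h1
    | 1 => exact_mod_cast h3
    | 2 => exact_mod_cast h5
    | i + 3 =>
      rw [Nat.choose_eq_zero_of_lt (by omega)]
      simp
  · obtain ⟨h1, h2, h3, h4, h5⟩ := Top.betti_cover
    intro i
    match i with
    | 0 => exact_mod_cast h2
    | 1 => exact_mod_cast h4
    | i + 2 =>
      rw [Nat.choose_eq_zero_of_lt (by omega)]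
      simp
  · obtain ⟨h0, h2, h4⟩ := betti_one
    intro i
    match i with
    | 0 => exact_mod_cast h0
    | 1 => exact_mod_cast h2
    | 2 => exact_mod_cast h4
    | i + 3 =>
      rw [Nat.choose_eq_zero_of_lt (by omega)]
      simp

theorem pk_succ {k : ℕ} (h : Pk k) : Pk (k + 1) := by
  obtain ⟨E, F, _, _, _, _, _, _, D, ⟨A⟩, ⟨R, hR⟩, _, N, _, _, C, h1, h2, h3⟩ := h
  have hd : finrank ℝ (EuclideanSpace ℝ (Fin (2 * (k + 1 + 3)))) =
      finrank ℝ (EuclideanSpace ℝ (Fin (2 * (k + 3)))) + 2 := by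
    simp only [finrank_euclideanSpace_fin]
    ring
  have h7 : ((7 : ℕ) : ZMod 7) = 0 := ZMod.natCast_self 7
  have h70 : (7 : ℕ) ≠ 0 := by norm_num
  refine ⟨E × (ℝ × ℂ), F × ℝ, inferInstance, inferInstance, inferInstance, inferInstance,
    inferInstance, inferInstance, prS D _ hd, ⟨?_⟩, ⟨max R 1, bound_prS D hd hR⟩,
    connected D hd, N × S, inferInstance, inferInstance, covS D hd C, h1.step hd h7 h70,
    h2.step hd h7 h70, h3.step hd h7 h70⟩
  have e : (16 : ℕ∞) * 2 ^ (k + 1) = 16 * 2 ^ k * 2 := by ring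
  rw [e]
  exact A.prod ambS D.smooth contDiff_q

theorem pk (k : ℕ) : Pk k := by
  induction k with
  | zero => exact pk_zero
  | succ k ih => exact pk_succ ih

/-- The examples: in every even dimension `2 n ≥ 6` there is a nondegenerate Hamiltonian flow with
at most `2 ^ (n + 1)` fixed points on a closed connected symplectic manifold whose stable Morse
number exceeds this number by at least `2 ^ ⌊(n - 2) / 4⌋`. -/
theorem every_dimension (n : ℕ) (hn : 3 ≤ n) :
    ∃ (M : Type) (_ : TopologicalSpace M) (_ : T2Space M) (_ : CompactSpace M)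
      (_ : ConnectedSpace M) (_ : ChartedSpace (EuclideanSpace ℝ (Fin (2 * n))) M)
      (_ : IsManifold 𝓘(ℝ, EuclideanSpace ℝ (Fin (2 * n))) ∞ M)
      (om : FormField (EuclideanSpace ℝ (Fin (2 * n))) M) (H : ℝ → M → ℝ) (φ : ℝ → M → M),
      IsSymplectic om ∧ IsHamiltonianFlow om H φ ∧
        NondegFixedPoints (EuclideanSpace ℝ (Fin (2 * n))) (φ 1) ∧
        {x | φ 1 x = x}.encard ≤ 2 ^ (n + 1) ∧
        2 ^ (n + 1) + 2 ^ ((n - 2) / 4) ≤ StableMorseNumber (EuclideanSpace ℝ (Fin (2 * n))) M := by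
  obtain ⟨k, rfl⟩ : ∃ k, n = k + 3 := ⟨n - 3, by omega⟩
  obtain ⟨E, F, _, _, _, _, _, _, D, ⟨A⟩, ⟨R, hR⟩, _, N, _, _, C, h1, h2, h3⟩ := pk k
  have : CompactSpace D.Carrier := D.compactSpace hR
  obtain ⟨om, H, φ, e1, e2, e3, e4⟩ := A.result D
  refine ⟨D.Carrier, inferInstance, inferInstance, inferInstance, inferInstance, inferInstance,
    inferInstance, om, H, φ, e1, e2, e3, e4.trans (le_of_eq ?_), ?_⟩
  · ring
  · have h := le_SM (V := EuclideanSpace ℝ (Fin (2 * (k + 3)))) C AS.morseIneq (3 : ZMod 7)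
      (by decide) k h1 h2 h3 ((k + 1) / 4) (by omega)
    have e5 : (k + 3 - 2) / 4 = (k + 1) / 4 := by omega
    rw [e5]
    exact h

end Vale.Agent.P265.H363
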