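import Vale.Agent.P265.H363.S2
import Vale.Agent.P265.H336.Iface
import Vale.Agent.P265.H266.Sphere

/-!
# Products of level sets with the sphere: topology and cyclic covers
-/

open Set Manifold Module
open scoped ContDiff Topology

noncomputable section

set_option maxSynthPendingDepth 3
set_option linter.unusedSectionVars false

namespace Vale.Agent.P265.H363

open Vale.Agent.P265.LS Vale.Agent.P265.Loc Vale.Agent.P265.AS

variable {E F V : Type} [NormedAddCommGroup E] [NormedSpace ℝ E] [NormedAddCommGroup F]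
  [NormedSpace ℝ F] [NormedAddCommGroup V] [NormedSpace ℝ V] [FiniteDimensional ℝ E]
  [FiniteDimensional ℝ F] [FiniteDimensional ℝ V]

/-- The product of a level set with the sphere. -/
def prS (D : RegLevel E F V) (V' : Type) [NormedAddCommGroup V'] [NormedSpace ℝ V']
    [FiniteDimensional ℝ V'] (h : finrank ℝ V' = finrank ℝ V + 2) :
    RegLevel (E × (ℝ × ℂ)) (F × ℝ) V' where
  G := Prod.map D.G q
  smooth := (D.smooth.comp contDiff_fst).prodMk (contDiff_q.comp contDiff_snd)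
  surj x hx := by
    rw [prodMap_eq_zero] at hx
    rintro ⟨y, z⟩
    obtain ⟨a, ha⟩ := D.surj _ hx.1 y
    obtain ⟨b, hb⟩ := surj_q _ hx.2 z
    refine ⟨(a, b), ?_⟩
    rw [fderiv_prodMap (D.smooth.differentiable (by simp)) (contDiff_q.differentiable (by simp)),
      ha, hb]
  dim := by
    have h1 := D.dim
    have h2 := finrank_S
    have h3 : finrank ℝ (EuclideanSpace ℝ (Fin 2)) = 2 := by simp
    have h4 : finrank ℝ (E × (ℝ × ℂ)) = finrank ℝ E + finrank ℝ (ℝ × ℂ) := Module.finrank_prod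
    have h5 : finrank ℝ (F × ℝ) = finrank ℝ F + finrank ℝ ℝ := Module.finrank_prod
    rw [h4, h5, h, h1, h2, h3]
    ring

variable (D : RegLevel E F V) {V' : Type} [NormedAddCommGroup V'] [NormedSpace ℝ V']
    [FiniteDimensional ℝ V'] (h : finrank ℝ V' = finrank ℝ V + 2)

theorem G_prS {x : E × (ℝ × ℂ)} : (prS D V' h).G x = 0 ↔ D.G x.1 = 0 ∧ RS.G x.2 = 0 :=
  prodMap_eq_zero (G₁ := D.G) (G₂ := q)

/-- The point `(x, s)` of the product. -/
def mk2 (x : D.Carrier) (s : S) : (prS D V' h).Carrier :=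
  (prS D V' h).pt (D.ι x, RS.ι s) ((G_prS D h).2 ⟨D.G_ι x, RS.G_ι s⟩)

/-- first projection -/
def p1 (z : (prS D V' h).Carrier) : D.Carrier :=
  D.pt ((prS D V' h).ι z).1 ((G_prS D h).1 ((prS D V' h).G_ι z)).1

/-- second projection -/
def p2 (z : (prS D V' h).Carrier) : S :=
  RS.pt ((prS D V' h).ι z).2 ((G_prS D h).1 ((prS D V' h).G_ι z)).2

@[simp] theorem ι_mk2 (x : D.Carrier) (s : S) :
    (prS D V' h).ι (mk2 D h x s) = (D.ι x, RS.ι s) := rfl

@[simp] theorem p1_mk2 (x : D.Carrier) (s : S) : p1 D h (mk2 D h x s) = x := rfl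

@[simp] theorem p2_mk2 (x : D.Carrier) (s : S) : p2 D h (mk2 D h x s) = s := rfl

@[simp] theorem mk2_p (z : (prS D V' h).Carrier) : mk2 D h (p1 D h z) (p2 D h z) = z := rfl

theorem dist_eq (z w : (prS D V' h).Carrier) :
    dist z w = max (dist (p1 D h z) (p1 D h w)) (dist (p2 D h z) (p2 D h w)) := rfl

theorem dist_mk2 (x : D.Carrier) (s : S) (z : (prS D V' h).Carrier) :
    dist (mk2 D h x s) z = max (dist x (p1 D h z)) (dist s (p2 D h z)) := rfl

theorem continuous_mk2 : Continuous (fun p : D.Carrier × S => mk2 D h p.1 p.2) := by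
  rw [(prS D V' h).isEmbedding_ι.continuous_iff]
  exact (D.continuous_ι.comp continuous_fst).prodMk (RS.continuous_ι.comp continuous_snd)

theorem continuous_p1 : Continuous (p1 D h) := by
  rw [D.isEmbedding_ι.continuous_iff]
  exact continuous_fst.comp (prS D V' h).continuous_ι

theorem continuous_p2 : Continuous (p2 D h) := by
  rw [RS.isEmbedding_ι.continuous_iff]
  exact continuous_snd.comp (prS D V' h).continuous_ι

theorem connected [ConnectedSpace D.Carrier] : ConnectedSpace (prS D V' h).Carrier := by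
  have hs : Function.Surjective (fun p : D.Carrier × S => mk2 D h p.1 p.2) :=
    fun z => ⟨(p1 D h z, p2 D h z), rfl⟩
  exact hs.connectedSpace (continuous_mk2 D h)

theorem bound_prS {R : ℝ} (hR : ∀ x, D.G x = 0 → ‖x‖ ≤ R) :
    ∀ x, (prS D V' h).G x = 0 → ‖x‖ ≤ max R 1 := by
  intro x hx
  obtain ⟨h1, h2⟩ := (G_prS D h).1 hx
  exact max_le_max (hR _ h1) (norm_le_one h2)

/-- The product of a cyclic cover with the sphere. -/
def covS {N : Type} [MetricSpace N] {n : ℕ} (C : CycCover D.Carrier N n) :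
    CycCover (prS D V' h).Carrier (N × S) n where
  π p := mk2 D h (C.π p.1) p.2
  g := Prod.map C.g id
  lift p z := (C.lift p.1 (p1 D h z), p2 D h z)
  δ := C.δ
  n_pos := C.n_pos
  δ_pos := C.δ_pos
  cont_π := (continuous_mk2 D h).comp ((C.cont_π.comp continuous_fst).prodMk continuous_snd)
  cont_g := C.cont_g.prodMap continuous_id
  surj z := by
    obtain ⟨x, hx⟩ := C.surj (p1 D h z)
    refine ⟨(x, p2 D h z), ?_⟩
    simp only [hx, mk2_p]
  π_g p := by
    simp only [Prod.map, C.π_g, id]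
  iter p := by
    rw [Prod.map_iterate]
    refine Prod.ext (C.iter p.1) ?_
    simp
  free p i hi hn hp := by
    rw [Prod.map_iterate] at hp
    exact C.free p.1 i hi hn (congrArg Prod.fst hp)
  fiber p p' hp := by
    have e1 : C.π p.1 = C.π p'.1 := congrArg (p1 D h) hp
    have e2 : p.2 = p'.2 := congrArg (p2 D h) hp
    obtain ⟨i, hi, e3⟩ := C.fiber _ _ e1
    refine ⟨i, hi, ?_⟩
    rw [Prod.map_iterate]
    refine Prod.ext e3 ?_
    simp [e2]
  π_lift p z hz := by
    rw [dist_mk2, max_lt_iff] at hz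
    simp only [C.π_lift _ _ hz.1, mk2_p]
  lift_self p := by
    simp only [p1_mk2, p2_mk2, C.lift_self]
  lift_g p z hz := by
    rw [dist_mk2, max_lt_iff] at hz
    simp only [Prod.map, C.lift_g _ _ hz.1, id]
  cont_lift := by
    refine ContinuousOn.prodMk ?_ ((continuous_p2 D h).comp continuous_snd).continuousOn
    have e : ContinuousOn (fun r : (N × S) × (prS D V' h).Carrier => (r.1.1, p1 D h r.2))
        {r | dist (mk2 D h (C.π r.1.1) r.1.2) r.2 < C.δ} :=
      ((continuous_fst.comp continuous_fst).prodMk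
        ((continuous_p1 D h).comp continuous_snd)).continuousOn
    refine C.cont_lift.comp e ?_
    intro r hr
    have hr' : dist (mk2 D h (C.π r.1.1) r.1.2) r.2 < C.δ := hr
    rw [dist_mk2, max_lt_iff] at hr'
    exact hr'.1

/-- Transfer to the subset of `N × (ℝ × ℂ)`. -/
theorem transfer_sph {N : Type} [MetricSpace N] (g : N → N) {k : Type} [Field k] (χ : k)
    (j : ℕ) : hh (Prod.map g (id : ℝ × ℂ → ℝ × ℂ)) χ (sph univ) ∅ j ≤
      hh (Prod.map g (id : S → S)) χ univ ∅ j := by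
  classical
  let s₀ : S := RS.pt (1, 0) (by rw [show RS.G = q from rfl, q_eq_zero]; norm_num)
  let r : ℝ × ℂ → S := fun v => if hv : q v = 0 then RS.pt v hv else s₀
  have hr : ∀ v, v.1 ^ 2 + ‖v.2‖ ^ 2 = 1 → RS.ι (r v) = v := by
    intro v hv
    have hv' : q v = 0 := q_eq_zero.2 hv
    simp only [r, dif_pos hv']
    rfl
  have hφ : IsMapP (Prod.map g (id : ℝ × ℂ → ℝ × ℂ)) (Prod.map g (id : S → S)) (sph univ) ∅ univ ∅
      (fun p : N × (ℝ × ℂ) => (p.1, r p.2)) := by
    refine ⟨fun _ _ => mem_univ _, fun _ h => h, fun _ _ => rfl, fun ε hε =>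
      ⟨ε, hε, fun x hx y hy hxy => ?_⟩⟩
    rw [Prod.dist_eq, max_lt_iff] at hxy ⊢
    refine ⟨hxy.1, ?_⟩
    rw [← RS.dist_ι]
    simp only [hr _ hx.2, hr _ hy.2]
    exact hxy.2
  have hψ : IsMapP (Prod.map g (id : S → S)) (Prod.map g (id : ℝ × ℂ → ℝ × ℂ)) univ ∅ (sph univ) ∅
      (fun p : N × S => (p.1, RS.ι p.2)) :=
    ⟨fun x _ => ⟨mem_univ _, q_eq_zero.1 (RS.G_ι x.2)⟩, fun _ h => h, fun _ _ => rfl,
      fun ε hε => ⟨ε, hε, fun x _ y _ hxy => hxy⟩⟩
  refine hh_le_of_retract (H := fun _ p => p) hφ hψ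
    ⟨fun _ _ _ h => h, fun _ _ _ h => h.elim, fun _ _ _ _ => rfl, fun ε hε =>
      ⟨ε, hε, fun _ _ _ _ p _ q _ _ h => h⟩⟩ (empty_subset _) (empty_subset _)
    (fun _ _ => rfl) (fun p hp => ?_) χ j
  simp only [hr _ hp.2]

/-- The sphere factor shifts and doubles the equivariant cohomology. -/
theorem covS_ge {N : Type} [MetricSpace N] {n : ℕ} (C : CycCover D.Carrier N n) {k : Type}
    [Field k] (χ : k) (j : ℕ) : hh C.g χ univ ∅ j ≤ hh (covS D h C).g χ univ ∅ j :=
  (hh_sph_ge C.g χ univ j).trans (transfer_sph C.g χ j)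

theorem covS_add {N : Type} [MetricSpace N] {n : ℕ} (C : CycCover D.Carrier N n) {k : Type}
    [Field k] (χ : k) {r : ℕ} (hr : (r : k) = 0) (hr0 : r ≠ 0) (j : ℕ) :
    hh C.g χ univ ∅ (j + 2) + hh C.g χ univ ∅ j ≤ hh (covS D h C).g χ univ ∅ (j + 2) :=
  (hh_sph_add C.g χ univ hr hr0 j).trans (transfer_sph C.g χ (j + 2))

end Vale.Agent.P265.H363
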