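import Vale.Agent.P265.H363.Amb
import Mathlib.Analysis.Complex.Basic
import Mathlib.Analysis.InnerProductSpace.Calculus
import Mathlib.Analysis.InnerProductSpace.PiL2
import Mathlib.Analysis.Normed.Module.Connected
import Mathlib.LinearAlgebra.Complex.FiniteDimensional
import Mathlib.Analysis.SpecialFunctions.Trigonometric.Bounds

/-!
# The unit sphere of `ℝ × ℂ`, its area form and a rotation
-/

open Set Manifold Module
open scoped ContDiff Topology

noncomputable section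

set_option maxSynthPendingDepth 3
set_option linter.unusedSectionVars false

namespace Vale.Agent.P265.H363

open Vale.Agent.P265.LS Vale.Agent.P265.Loc

/-- The defining function of the sphere. -/
def q (s : ℝ × ℂ) : ℝ := s.1 ^ 2 + ‖s.2‖ ^ 2 - 1

theorem q_eq (s : ℝ × ℂ) : q s = s.1 ^ 2 + (s.2.re ^ 2 + s.2.im ^ 2) - 1 := by
  rw [q, ← Complex.normSq_eq_norm_sq, Complex.normSq_apply]
  ring

theorem q_eq_zero {s : ℝ × ℂ} : q s = 0 ↔ s.1 ^ 2 + ‖s.2‖ ^ 2 = 1 := by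
  rw [q, sub_eq_zero]

/-- height -/
def Lh : ℝ × ℂ →L[ℝ] ℝ := ContinuousLinearMap.fst ℝ ℝ ℂ
/-- real part -/
def Lr : ℝ × ℂ →L[ℝ] ℝ := Complex.reCLM.comp (ContinuousLinearMap.snd ℝ ℝ ℂ)
/-- imaginary part -/
def Li : ℝ × ℂ →L[ℝ] ℝ := Complex.imCLM.comp (ContinuousLinearMap.snd ℝ ℝ ℂ)

@[simp] theorem Lh_apply (s : ℝ × ℂ) : Lh s = s.1 := rfl
@[simp] theorem Lr_apply (s : ℝ × ℂ) : Lr s = s.2.re := rfl
@[simp] theorem Li_apply (s : ℝ × ℂ) : Li s = s.2.im := rfl

theorem hasFDerivAt_q (s : ℝ × ℂ) : HasFDerivAt q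
    ((2 * s.1) • Lh + ((2 * s.2.re) • Lr + (2 * s.2.im) • Li)) s := by
  have e : q = fun s => Lh s ^ 2 + (Lr s ^ 2 + Li s ^ 2) - 1 := by
    funext s
    rw [q_eq]
    rfl
  rw [e]
  have h1 := (Lh.hasFDerivAt (x := s)).pow 2
  have h2 := (Lr.hasFDerivAt (x := s)).pow 2
  have h3 := (Li.hasFDerivAt (x := s)).pow 2
  have h4 := (h1.add (h2.add h3)).sub_const 1
  refine h4.congr_fderiv ?_
  ext x <;> simp

theorem fderiv_q (s ξ : ℝ × ℂ) : fderiv ℝ q s ξ =
    2 * (s.1 * ξ.1 + s.2.re * ξ.2.re + s.2.im * ξ.2.im) := by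
  rw [(hasFDerivAt_q s).fderiv]
  simp
  ring

theorem contDiff_q : ContDiff ℝ ∞ q := by
  have e : q = fun s => Lh s ^ 2 + (Lr s ^ 2 + Li s ^ 2) - 1 := by
    funext s
    rw [q_eq]
    rfl
  rw [e]
  fun_prop

theorem surj_q (s : ℝ × ℂ) (hs : q s = 0) : Function.Surjective (fderiv ℝ q s) := by
  intro y
  refine ⟨(y / 2) • s, ?_⟩
  rw [q_eq] at hs
  rw [fderiv_q]
  simp only [Prod.smul_fst, Prod.smul_snd, smul_eq_mul, Complex.real_smul, Complex.mul_re,
    Complex.mul_im, Complex.ofReal_re, Complex.ofReal_im]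
  linear_combination y * hs

theorem finrank_S : finrank ℝ (ℝ × ℂ) = finrank ℝ ℝ + finrank ℝ (EuclideanSpace ℝ (Fin 2)) := by
  simp [Module.finrank_prod, Complex.finrank_real_complex]

/-- The sphere. -/
def RS : RegLevel (ℝ × ℂ) ℝ (EuclideanSpace ℝ (Fin 2)) where
  G := q
  smooth := contDiff_q
  surj := surj_q
  dim := finrank_S

/-- The sphere, as a type. -/
abbrev S : Type := RS.Carrier

theorem norm_le_one {s : ℝ × ℂ} (h : q s = 0) : ‖s‖ ≤ 1 := by
  rw [q_eq_zero] at h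
  refine max_le ?_ ?_
  · rw [Real.norm_eq_abs]
    exact abs_le_one_iff_mul_self_le_one.2 (by nlinarith [sq_nonneg ‖s.2‖])
  · nlinarith [norm_nonneg s.2, sq_nonneg s.1]

instance : CompactSpace S := RS.compactSpace fun _ h => norm_le_one h

theorem isConnected_S : IsConnected {s : ℝ × ℂ | q s = 0} := by
  have hr : 1 < Module.rank ℝ (ℝ × ℂ) := by
    rw [← Module.finrank_eq_rank, Module.finrank_prod, Complex.finrank_real_complex,
      Module.finrank_self]
    norm_num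
  have h1 : IsConnected ({(0 : ℝ × ℂ)}ᶜ) := isConnected_compl_singleton_of_one_lt_rank hr 0
  have hpos : ∀ s : ℝ × ℂ, s ∈ ({(0 : ℝ × ℂ)}ᶜ : Set (ℝ × ℂ)) → 0 < s.1 ^ 2 + ‖s.2‖ ^ 2 := by
    intro s hs
    by_contra h
    apply hs
    have h2 : s.1 = 0 := by nlinarith [sq_nonneg s.1, sq_nonneg ‖s.2‖]
    have h3 : ‖s.2‖ = 0 := by nlinarith [sq_nonneg s.1, sq_nonneg ‖s.2‖]
    exact Prod.ext h2 (norm_eq_zero.1 h3)
  have h2 : ContinuousOn (fun s : ℝ × ℂ => (Real.sqrt (s.1 ^ 2 + ‖s.2‖ ^ 2))⁻¹ • s)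
      ({(0 : ℝ × ℂ)}ᶜ) := by
    have hc : ContinuousOn (fun s : ℝ × ℂ => Real.sqrt (s.1 ^ 2 + ‖s.2‖ ^ 2))
        ({(0 : ℝ × ℂ)}ᶜ) := by fun_prop
    exact (hc.inv₀ fun s hs => (Real.sqrt_pos.2 (hpos s hs)).ne').smul continuousOn_id
  have h3 := h1.image _ h2
  convert h3 using 1
  ext s
  constructor
  · intro hs
    have hs' : s.1 ^ 2 + ‖s.2‖ ^ 2 = 1 := q_eq_zero.1 hs
    refine ⟨s, ?_, ?_⟩
    · rintro rfl
      norm_num at hs'
    · simp [hs']
  · rintro ⟨t, ht, rfl⟩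
    have hp := hpos t ht
    have hq := Real.sqrt_pos.2 hp
    change q _ = 0
    rw [q_eq_zero]
    simp only [Prod.smul_fst, Prod.smul_snd, smul_eq_mul, norm_smul, norm_inv, Real.norm_eq_abs,
      abs_of_pos hq, mul_pow, inv_pow, Real.sq_sqrt hp.le]
    rw [← mul_add, inv_mul_cancel₀ hp.ne']

instance : ConnectedSpace S := isConnected_iff_connectedSpace.1 isConnected_S

/-- wedge of two linear forms -/
def wd (f g : ℝ × ℂ →L[ℝ] ℝ) : ℝ × ℂ →L[ℝ] ℝ × ℂ →L[ℝ] ℝ := f.smulRight g - g.smulRight f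

theorem wd_apply (f g : ℝ × ℂ →L[ℝ] ℝ) (a b : ℝ × ℂ) : wd f g a b = f a * g b - g a * f b := rfl

/-- The area form as a linear map. -/
def OS : ℝ × ℂ →L[ℝ] (ℝ × ℂ →L[ℝ] ℝ × ℂ →L[ℝ] ℝ) :=
  Lh.smulRight (wd Lr Li) + (Lr.smulRight (wd Li Lh) + Li.smulRight (wd Lh Lr))

theorem OS_apply (s a b : ℝ × ℂ) : OS s a b =
    s.1 * (a.2.re * b.2.im - a.2.im * b.2.re) + (s.2.re * (a.2.im * b.1 - a.1 * b.2.im) +
      s.2.im * (a.1 * b.2.re - a.2.re * b.1)) := rfl

/-- The rotation. -/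
def RT (t : ℝ) (s : ℝ × ℂ) : ℝ × ℂ := (s.1, Complex.exp (t * Complex.I) * s.2)

theorem contDiff_RT : ContDiff ℝ ∞ (fun p : ℝ × (ℝ × ℂ) => RT p.1 p.2) := by
  have h : ContDiff ℝ ∞ (fun p : ℝ × (ℝ × ℂ) => Complex.exp ((p.1 : ℂ) * Complex.I)) := by
    have h1 : ContDiff ℝ ∞ (fun p : ℝ × (ℝ × ℂ) => ((p.1 : ℝ) : ℂ)) :=
      Complex.ofRealCLM.contDiff.comp contDiff_fst
    exact (h1.mul contDiff_const).cexp
  unfold RT
  exact (contDiff_fst.comp contDiff_snd).prodMk (h.mul (contDiff_snd.comp contDiff_snd))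

theorem q_RT (t : ℝ) (s : ℝ × ℂ) : q (RT t s) = q s := by
  simp only [q, RT, norm_mul, Complex.norm_exp_ofReal_mul_I, one_mul]

theorem deriv_RT (t : ℝ) (s : ℝ × ℂ) : deriv (fun r => RT r s) t =
    (0, Complex.I * (RT t s).2) := by
  have h1 : HasDerivAt (fun r : ℝ => ((r : ℂ) * Complex.I)) Complex.I t := by
    simpa using (Complex.ofRealCLM.hasDerivAt (x := t)).mul_const Complex.I
  have h2 := (h1.cexp.mul_const s.2)
  have h3 : HasDerivAt (fun r => RT r s) (0, Complex.exp (t * Complex.I) * Complex.I * s.2) t :=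
    (hasDerivAt_const t s.1).prodMk h2
  rw [h3.deriv]
  refine Prod.ext rfl ?_
  simp only [RT]
  ring

theorem exp_I_ne : Complex.exp (((1 : ℝ) : ℂ) * Complex.I) - 1 ≠ 0 := by
  intro h
  rw [sub_eq_zero] at h
  have h1 := congrArg Complex.re h
  rw [Complex.exp_ofReal_mul_I_re, Complex.one_re] at h1
  have h2 := Real.cos_one_le
  linarith

/-- The rotation of the sphere as a Hamiltonian flow with two fixed points. -/
def ambS : Amb q 2 where
  Ω := OS
  H := fun _ s => s.1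
  Φ := RT
  hs x _ := OS.contDiff.contDiffAt
  halt x _ v := by rw [OS_apply]; ring
  hnd x hx v hv h := by
    rw [q_eq] at hx
    rw [fderiv_q] at hv
    have hv' : x.1 * v.1 + x.2.re * v.2.re + x.2.im * v.2.im = 0 := by linarith
    have h1 := h (x.2.re * v.2.im - x.2.im * v.2.re,
      ⟨x.2.im * v.1 - x.1 * v.2.im, x.1 * v.2.re - x.2.re * v.1⟩) (by
      rw [fderiv_q]; simp only; ring)
    rw [OS_apply] at h1
    simp only at h1
    have h2 : v.1 ^ 2 + v.2.re ^ 2 + v.2.im ^ 2 = 0 := by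
      have h3 : (x.1 ^ 2 + (x.2.re ^ 2 + x.2.im ^ 2)) * (v.1 ^ 2 + v.2.re ^ 2 + v.2.im ^ 2) -
          (x.1 * v.1 + x.2.re * v.2.re + x.2.im * v.2.im) ^ 2 = 0 := by linear_combination h1
      rw [hv', show x.1 ^ 2 + (x.2.re ^ 2 + x.2.im ^ 2) = 1 by linarith] at h3
      linarith
    have h4 : v.1 = 0 := by nlinarith [sq_nonneg v.1, sq_nonneg v.2.re, sq_nonneg v.2.im]
    have h5 : v.2.re = 0 := by nlinarith [sq_nonneg v.1, sq_nonneg v.2.re, sq_nonneg v.2.im]
    have h6 : v.2.im = 0 := by nlinarith [sq_nonneg v.1, sq_nonneg v.2.re, sq_nonneg v.2.im]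
    exact Prod.ext h4 (Complex.ext h5 h6)
  hcl x hx u v w hu hv hw := by
    rw [q_eq] at hx
    rw [fderiv_q] at hu hv hw
    have e : fderiv ℝ OS x = OS := OS.fderiv
    have e1 : fderiv ℝ (fun s => OS s) x = OS := e
    rw [e1, OS_apply, OS_apply, OS_apply]
    have hu' : x.1 * u.1 + x.2.re * u.2.re + x.2.im * u.2.im = 0 := by linarith
    have hv' : x.1 * v.1 + x.2.re * v.2.re + x.2.im * v.2.im = 0 := by linarith
    have hw' : x.1 * w.1 + x.2.re * w.2.re + x.2.im * w.2.im = 0 := by linarith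
    have key : (u.1 * (v.2.re * w.2.im - v.2.im * w.2.re) +
        (u.2.re * (v.2.im * w.1 - v.1 * w.2.im) + u.2.im * (v.1 * w.2.re - v.2.re * w.1))) *
        (x.1 ^ 2 + (x.2.re ^ 2 + x.2.im ^ 2)) = 0 := by
      linear_combination
        (x.1 * (v.2.re * w.2.im - v.2.im * w.2.re) + x.2.re * (v.2.im * w.1 - v.1 * w.2.im) +
          x.2.im * (v.1 * w.2.re - v.2.re * w.1)) * hu' +
        (x.1 * (w.2.re * u.2.im - w.2.im * u.2.re) + x.2.re * (w.2.im * u.1 - w.1 * u.2.im) +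
          x.2.im * (w.1 * u.2.re - w.2.re * u.1)) * hv' +
        (x.1 * (u.2.re * v.2.im - u.2.im * v.2.re) + x.2.re * (u.2.im * v.1 - u.1 * v.2.im) +
          x.2.im * (u.1 * v.2.re - u.2.re * v.1)) * hw'
    rw [show x.1 ^ 2 + (x.2.re ^ 2 + x.2.im ^ 2) = 1 by linarith, mul_one] at key
    linear_combination 3 * key
  hG t x hx := by rw [q_RT, hx]
  hH t x _ := by fun_prop
  hper t x _ := rfl
  hΦ t x _ := contDiff_RT.contDiffAt
  h0 x _ := by simp [RT]
  ham t x hx w hw := by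
    rw [deriv_RT]
    have hy : q (RT t x) = 0 := by rw [q_RT, hx]
    generalize RT t x = y at *
    rw [q_eq] at hy
    rw [fderiv_q] at hw
    have e : fderiv ℝ (fun s : ℝ × ℂ => s.1) y = Lh := Lh.fderiv
    rw [e, OS_apply, Lh_apply]
    simp only [Complex.mul_re, Complex.mul_im, Complex.I_re, Complex.I_im]
    linear_combination w.1 * hy - y.1 * hw / 2
  hfix x hx hfx ξ hξ hξ' := by
    rw [q_eq] at hx
    rw [fderiv_q] at hξ
    have h1 : Complex.exp (((1 : ℝ) : ℂ) * Complex.I) * x.2 = x.2 := congrArg Prod.snd hfx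
    have h2 : x.2 = 0 := by
      have h3 : (Complex.exp (((1 : ℝ) : ℂ) * Complex.I) - 1) * x.2 = 0 := by
        rw [sub_mul, h1, one_mul, sub_self]
      exact (mul_eq_zero.1 h3).resolve_left exp_I_ne
    have e : HasFDerivAt (RT 1) ((ContinuousLinearMap.fst ℝ ℝ ℂ).prod
        (Complex.exp (((1 : ℝ) : ℂ) * Complex.I) • ContinuousLinearMap.snd ℝ ℝ ℂ)) x := by
      have e1 : HasFDerivAt (fun s : ℝ × ℂ => s.1) (ContinuousLinearMap.fst ℝ ℝ ℂ) x :=
        hasFDerivAt_fst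
      have e2 : HasFDerivAt (fun s : ℝ × ℂ => Complex.exp (((1 : ℝ) : ℂ) * Complex.I) * s.2)
          (Complex.exp (((1 : ℝ) : ℂ) * Complex.I) • ContinuousLinearMap.snd ℝ ℝ ℂ) x :=
        hasFDerivAt_snd.const_mul _
      exact e1.prodMk e2
    rw [e.fderiv] at hξ'
    have h4 : Complex.exp (((1 : ℝ) : ℂ) * Complex.I) * ξ.2 = ξ.2 := congrArg Prod.snd hξ'
    have h5 : ξ.2 = 0 := by
      have h3 : (Complex.exp (((1 : ℝ) : ℂ) * Complex.I) - 1) * ξ.2 = 0 := by
        rw [sub_mul, h4, one_mul, sub_self]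
      exact (mul_eq_zero.1 h3).resolve_left exp_I_ne
    rw [h2] at hx hξ
    rw [h5] at hξ
    simp only [Complex.zero_re, Complex.zero_im] at hx hξ
    have h6 : ξ.1 = 0 := by
      have : x.1 ^ 2 = 1 := by linarith
      have h7 : x.1 * ξ.1 = 0 := by linarith
      rcases mul_eq_zero.1 h7 with h8 | h8
      · rw [h8] at this; norm_num at this
      · exact h8
    exact Prod.ext h6 h5
  card := by
    have h : {x : ℝ × ℂ | q x = 0 ∧ RT 1 x = x} ⊆ {((1 : ℝ), (0 : ℂ)), ((-1 : ℝ), (0 : ℂ))} := by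
      rintro x ⟨hx, hfx⟩
      rw [q_eq] at hx
      have h1 : Complex.exp (((1 : ℝ) : ℂ) * Complex.I) * x.2 = x.2 := congrArg Prod.snd hfx
      have h2 : x.2 = 0 := by
        have h3 : (Complex.exp (((1 : ℝ) : ℂ) * Complex.I) - 1) * x.2 = 0 := by
          rw [sub_mul, h1, one_mul, sub_self]
        exact (mul_eq_zero.1 h3).resolve_left exp_I_ne
      rw [h2] at hx
      simp only [Complex.zero_re, Complex.zero_im] at hx
      have h4 : x.1 = 1 ∨ x.1 = -1 := by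
        have : (x.1 - 1) * (x.1 + 1) = 0 := by linarith
        rcases mul_eq_zero.1 this with h | h
        · left; linarith
        · right; linarith
      rcases h4 with h | h
      · left; exact Prod.ext h h2
      · right; exact Prod.ext h h2
    calc _ ≤ _ := encard_le_encard h
      _ ≤ 2 := by
        refine (encard_insert_le _ _).trans ?_
        rw [encard_singleton]
        norm_num

end Vale.Agent.P265.H363
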